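import Vale.Agent.P080C1.Dichotomy.Core

/-!
Functions of two variables with small second differences are close to affine functions.
-/

noncomputable section

open Metric Set
open scoped RealInnerProductSpace

namespace Vale.Agent.P080C1.Dichotomy

/-- The centred slope at scale `r`. -/
def slope2 (g : E2 → ℝ) (r : ℝ) : E2 :=
  ∑ i, ((g (r • EuclideanSpace.single i 1) - g ((-r) • EuclideanSpace.single i 1)) / (2 * r)) •
    EuclideanSpace.single i 1

lemma inner_slope2 (g : E2 → ℝ) (r : ℝ) (x : E2) : ⟪slope2 g r, x⟫ =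
    ∑ i, (g (r • EuclideanSpace.single i 1) - g ((-r) • EuclideanSpace.single i 1)) / (2 * r) *
      x i := by
  rw [slope2, sum_inner]
  exact Finset.sum_congr rfl fun i _ => by
    rw [real_inner_smul_left, EuclideanSpace.inner_single_left]; simp

/-- A continuous function of one variable with second differences at most `M` is `2 M`-close to
the line through its value at the centre with the centred slope. -/
lemma line_dev {g : ℝ → ℝ} {r M : ℝ} (hr : 0 < r) (hg : ContinuousOn g (Icc (-r) r))
    (h : ∀ s a : ℝ, |s + a| ≤ r → |s - a| ≤ r → |g (s + a) + g (s - a) - 2 * g s| ≤ M) :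
    ∀ s ∈ Icc (-r) r, |g s - g 0 - (g r - g (-r)) / (2 * r) * s| ≤ 2 * M := by
  set k := (g r - g (-r)) / (2 * r) with hk
  set d : ℝ → ℝ := fun s => g s - (g r + g (-r)) / 2 - k * s with hd
  have hk' : k * (2 * r) = g r - g (-r) := div_mul_cancel₀ _ (by positivity)
  have hdr : d r = 0 := by simp only [hd]; linarith
  have hdl : d (-r) = 0 := by simp only [hd]; linarith
  have hdd : ∀ s a : ℝ, d (s + a) + d (s - a) - 2 * d s = g (s + a) + g (s - a) - 2 * g s := by
    intro s a; simp only [hd]; ring
  have hdc : ContinuousOn d (Icc (-r) r) := by simp only [hd]; fun_prop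
  have hM : 0 ≤ M := (abs_nonneg _).trans (h 0 0 (by simp [hr.le]) (by simp [hr.le]))
  have key : ∀ s ∈ Icc (-r) r, |d s| ≤ M := by
    obtain ⟨s₀, hs₀, hmax⟩ := isCompact_Icc.exists_isMaxOn
      (nonempty_Icc.2 (by linarith)) hdc.abs
    intro s hs
    refine (hmax hs).trans ?_
    change |d s₀| ≤ M
    rcases le_total 0 s₀ with hpos | hneg
    · have h1 := h s₀ (r - s₀) (by rw [abs_le]; constructor <;> linarith [hs₀.2])
        (by rw [abs_le]; constructor <;> linarith [hs₀.1, hs₀.2])
      rw [← hdd, show s₀ + (r - s₀) = r by ring, hdr] at h1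
      have h2 : |d (s₀ - (r - s₀))| ≤ |d s₀| :=
        hmax ⟨by linarith [hs₀.1], by linarith [hs₀.2]⟩
      rcases abs_cases (d s₀) with ⟨e, _⟩ | ⟨e, _⟩ <;>
        linarith [abs_le.1 h1, abs_le.1 h2]
    · have h1 := h s₀ (-r - s₀) (by rw [abs_le]; constructor <;> linarith [hs₀.1])
        (by rw [abs_le]; constructor <;> linarith [hs₀.1, hs₀.2])
      rw [← hdd, show s₀ + (-r - s₀) = -r by ring, hdl] at h1
      have h2 : |d (s₀ - (-r - s₀))| ≤ |d s₀| :=
        hmax ⟨by linarith [hs₀.1], by linarith [hs₀.2, hs₀.1]⟩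
      rcases abs_cases (d s₀) with ⟨e, _⟩ | ⟨e, _⟩ <;>
        linarith [abs_le.1 h1, abs_le.1 h2]
  intro s hs
  have h1 := key s hs
  have h0 := key 0 ⟨by linarith, hr.le⟩
  simp only [hd] at h1 h0
  rw [abs_le] at *
  constructor <;> linarith

/-- A continuous function on a disk whose second differences with steps up to `r` are at most `M`
is close to an affine function, with a constant depending on the ratio of the radii. -/
lemma affine_dev {g : E2 → ℝ} {r R M : ℝ} (hr : 0 < r) (hrR : r ≤ R)
    (hg : ContinuousOn g (closedBall 0 R))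
    (h : ∀ x a : E2, ‖a‖ ≤ r → ‖x + a‖ ≤ R → ‖x - a‖ ≤ R →
      |g (x + a) + g (x - a) - 2 * g x| ≤ M) (n : ℕ) :
    ∀ x : E2, ‖x‖ ≤ R → ‖x‖ ≤ (n + 1 : ℝ) * (r / 2) →
      |g x - g 0 - ⟪slope2 g r, x⟫| ≤ 3 * 4 ^ n * M := by
  have hM : 0 ≤ M := (abs_nonneg _).trans
    (h 0 0 (by simp [hr.le]) (by simp; linarith) (by simp; linarith))
  induction n with
  | zero =>
    intro x _ hx
    simp only [Nat.cast_zero, zero_add, one_mul] at hx
    have hline : ∀ i : Fin 2, ∀ s ∈ Icc (-r) r, |g (s • EuclideanSpace.single i 1) - g 0 -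
        (g (r • EuclideanSpace.single i 1) - g ((-r) • EuclideanSpace.single i 1)) / (2 * r) * s|
          ≤ 2 * M := by
      intro i
      have hn : ∀ s : ℝ, ‖s • (EuclideanSpace.single i 1 : E2)‖ = |s| := fun s => by
        rw [norm_smul]; simp
      have := line_dev (g := fun s => g (s • EuclideanSpace.single i 1)) hr
        (hg.comp (by fun_prop) fun s hs => by
          rw [mem_closedBall_zero_iff, hn, abs_le]; exact ⟨by linarith [hs.1], by linarith [hs.2]⟩)
        (M := M) (fun s a h1 h2 => by
          simp only [add_smul, sub_smul]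
          refine h _ _ ?_ ?_ ?_
          · rw [hn, abs_le]; constructor <;> linarith [abs_le.1 h1, abs_le.1 h2]
          · rw [← add_smul, hn]; linarith
          · rw [← sub_smul, hn]; linarith)
      simpa using this
    have hc : ∀ i : Fin 2, |x i| ≤ ‖x‖ := fun i => by simpa using PiLp.norm_apply_le x i
    have h0 := hline 0 (2 * x 0) ⟨by linarith [abs_le.1 (hc 0)], by linarith [abs_le.1 (hc 0)]⟩
    have h1 := hline 1 (2 * x 1) ⟨by linarith [abs_le.1 (hc 1)], by linarith [abs_le.1 (hc 1)]⟩
    set a : E2 := x 0 • EuclideanSpace.single 0 1 - x 1 • EuclideanSpace.single 1 1 with ha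
    have hxa : x + a = (2 * x 0) • EuclideanSpace.single 0 1 := by
      ext i; fin_cases i <;> simp [ha]; ring
    have hxb : x - a = (2 * x 1) • EuclideanSpace.single 1 1 := by
      ext i; fin_cases i <;> simp [ha]; ring
    have hna : ‖a‖ = ‖x‖ := by
      rw [EuclideanSpace.norm_eq, EuclideanSpace.norm_eq]
      simp [ha, Fin.sum_univ_two]
    have h2 := h x a (by linarith) ((norm_add_le _ _).trans (by linarith))
      ((norm_sub_le _ _).trans (by linarith))
    rw [hxa, hxb] at h2
    rw [inner_slope2, Fin.sum_univ_two]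
    rw [abs_le] at *
    simp only [pow_zero, mul_one]
    constructor <;> linarith
  | succ n ih =>
    intro x hxR hx
    rcases le_or_gt ‖x‖ ((n + 1 : ℝ) * (r / 2)) with hle | hgt
    · exact (ih x hxR hle).trans (mul_le_mul_of_nonneg_right (by
        rw [pow_succ]; nlinarith [pow_pos (by norm_num : (0 : ℝ) < 4) n]) hM)
    have hxp : 0 < ‖x‖ := lt_of_le_of_lt (by positivity) hgt
    set u : E2 := (r / 2 / ‖x‖) • x with hu
    have hnu : ‖u‖ = r / 2 := by
      rw [hu, norm_smul, Real.norm_of_nonneg (by positivity), div_mul_cancel₀ _ hxp.ne']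
    push_cast at hx
    have hn : ∀ k : ℝ, ‖x - k • u‖ = |‖x‖ - k * (r / 2)| := by
      intro k
      have : x - k • u = ((‖x‖ - k * (r / 2)) / ‖x‖) • x := by
        rw [hu, smul_smul, sub_div, sub_smul, div_self hxp.ne', one_smul, mul_div_assoc]
      rw [this, norm_smul, Real.norm_eq_abs, abs_div, abs_of_pos hxp, div_mul_cancel₀ _ hxp.ne']
    have hnn : (0 : ℝ) ≤ n * (r / 2) := by positivity
    have hlen1 : ‖x - u‖ ≤ (n + 1 : ℝ) * (r / 2) := by
      have := hn 1; rw [one_smul] at this
      rw [this, abs_le]; constructor <;> linarith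
    have hlen2 : ‖x - (2 : ℝ) • u‖ ≤ (n + 1 : ℝ) * (r / 2) := by
      rw [hn, abs_le]; constructor <;> linarith
    have hR1 : ‖x - u‖ ≤ R := by
      have := hn 1; rw [one_smul] at this
      rw [this, abs_le]; constructor <;> linarith
    have hR2 : ‖x - (2 : ℝ) • u‖ ≤ R := by
      rw [hn, abs_le]; constructor <;> linarith
    have h1 := ih _ hR1 hlen1
    have h2 := ih _ hR2 hlen2
    have h3 := h (x - u) u (by linarith) (by rwa [sub_add_cancel])
      (by rwa [sub_sub, ← two_smul ℝ u])
    rw [sub_add_cancel, sub_sub, ← two_smul ℝ u] at h3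
    rw [inner_sub_right] at h1
    rw [inner_sub_right, real_inner_smul_right] at h2
    rw [pow_succ]
    have : M ≤ 4 ^ n * M := le_mul_of_one_le_left hM (one_le_pow₀ (by norm_num))
    rw [abs_le] at *
    constructor <;> linarith

end Vale.Agent.P080C1.Dichotomy
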