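import Mathlib

/-!
The abstract core of the dichotomy: sequences of functions of time and two space variables which
satisfy, up to vanishing errors, both Hopf-Lax inequalities of the equation
`w_t + |Dw|² / 2 = c t + ⟪l t, x⟫` are second order close to affine functions at every scale.
-/

noncomputable section

open MeasureTheory Filter Topology Set
open scoped RealInnerProductSpace

namespace Vale.Agent.P080C1.Dichotomy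

/-- The plane of the transversal variables. -/
abbrev E2 : Type := EuclideanSpace ℝ (Fin 2)

/-- The affine source `c t + ⟪l t, x⟫`. -/
def src (c : ℝ → ℝ) (l : ℝ → E2) (t : ℝ) (x : E2) : ℝ := c t + ⟪l t, x⟫

/-- Functions which satisfy the two Hopf-Lax inequalities up to vanishing errors: the upper one
everywhere, the lower one, in both directions of time, outside vanishing sets of times. -/
structure Flow (A R K : ℝ) (w : ℕ → ℝ → E2 → ℝ) (c : ℕ → ℝ → ℝ) (l : ℕ → ℝ → E2)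
    (bad : ℕ → Set ℝ) : Prop where
  bound : ∀ j, ∀ t ∈ Icc (-A) A, ∀ x : E2, ‖x‖ ≤ R → |w j t x| ≤ K
  c_cont : ∀ j, Continuous (c j)
  l_cont : ∀ j, Continuous (l j)
  c_bound : ∀ j t, |c j t| ≤ K
  l_bound : ∀ j t, ‖l j t‖ ≤ K
  bad_meas : ∀ j, MeasurableSet (bad j)
  bad_lim : Tendsto (fun j => volume.real (bad j ∩ Icc (-A) A)) atTop (𝓝 0)
  equi : ∀ γ : ℝ, 0 < γ → ∃ r : ℝ, 0 < r ∧ ∀ᶠ j in atTop,
    ∀ t ∈ Icc (-A) A, ∀ t' ∈ Icc (-A) A, ∀ x x' : E2, ‖x‖ ≤ R → ‖x'‖ ≤ R →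
      |t - t'| ≤ r → ‖x - x'‖ ≤ r → |w j t x - w j t' x'| ≤ γ
  upper : ∀ γ h₀ : ℝ, 0 < γ → 0 < h₀ → ∀ᶠ j in atTop,
    ∀ (t h : ℝ) (x z : E2), h₀ ≤ h → t ∈ Icc (-A) A → t + h ∈ Icc (-A) A → ‖x‖ ≤ R → ‖z‖ ≤ R →
      w j (t + h) z - w j t x ≤ ‖z - x‖ ^ 2 / (2 * h) +
        (∫ s in t..t + h, src (c j) (l j) s x) + K * h * ‖z - x‖ + γ
  lower : ∃ h₁ : ℝ, 0 < h₁ ∧ ∀ γ h₀ : ℝ, 0 < γ → 0 < h₀ → ∀ᶠ j in atTop,
    ∀ (t h : ℝ) (x : E2), h₀ ≤ h → h ≤ h₁ → t ∈ Icc (-A) A → t ∉ bad j → ‖x‖ ≤ R / 2 →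
      (t + h ≤ A → ∃ z : E2, ‖z‖ ≤ R ∧
        ‖z - x‖ ^ 2 / (2 * h) + h * src (c j) (l j) t x - γ ≤ w j (t + h) z - w j t x) ∧
      (-A ≤ t - h → ∃ z : E2, ‖z‖ ≤ R ∧
        ‖z - x‖ ^ 2 / (2 * h) + h * src (c j) (l j) t x - γ ≤ w j t x - w j (t - h) z)

/-- A flow is within `C ρ²` of an affine function with bounded slopes on the cylinder of size `ρ`
around the origin, up to vanishing errors. -/
def CoreProp : Prop :=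
  ∀ A R K : ℝ, 0 < A → 0 < R → 0 < K → ∃ C ρ₀ : ℝ, 0 < C ∧ 0 < ρ₀ ∧
    ∀ (w : ℕ → ℝ → E2 → ℝ) (c : ℕ → ℝ → ℝ) (l : ℕ → ℝ → E2) (bad : ℕ → Set ℝ),
      Flow A R K w c l bad → ∀ ρ γ : ℝ, 0 < ρ → ρ ≤ ρ₀ → 0 < γ → ∀ᶠ j in atTop,
        ∃ (w₀ b : ℝ) (p : E2), |b| ≤ C ∧ ‖p‖ ≤ C ∧
          ∀ (t : ℝ) (x : E2), |t| ≤ ρ → ‖x‖ ≤ ρ →
            |w j t x - (w₀ + ⟪p, x⟫ + b * t)| ≤ C * ρ ^ 2 + γ

end Vale.Agent.P080C1.Dichotomy
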