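import Vale.Agent.P080C1.Dichotomy.Core

/-!
The transversal second differences of a flow: the interface between the two halves of the core.
-/

noncomputable section

open Filter Set

namespace Vale.Agent.P080C1.Dichotomy

/-- The transversal second differences of a flow are bounded by `C |a|²`, up to vanishing
errors, away from the boundary. -/
def SecondDiffProp : Prop :=
  ∀ A R K : ℝ, 0 < A → 0 < R → 0 < K → ∃ C A' R' : ℝ, 0 < C ∧ 0 < A' ∧ A' ≤ A / 2 ∧
    0 < R' ∧ R' ≤ R / 4 ∧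
    ∀ (w : ℕ → ℝ → E2 → ℝ) (c : ℕ → ℝ → ℝ) (l : ℕ → ℝ → E2) (bad : ℕ → Set ℝ),
      Flow A R K w c l bad → ∀ γ : ℝ, 0 < γ → ∀ᶠ j in atTop,
        ∀ t ∈ Icc (-A') A', ∀ x a : E2, ‖x‖ ≤ R' → ‖a‖ ≤ R' →
          |w j t (x + a) + w j t (x - a) - 2 * w j t x| ≤ C * ‖a‖ ^ 2 + γ

end Vale.Agent.P080C1.Dichotomy
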